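import Vale.Agent.P004.H179.RZ17b
import Vale.Agent.P004.H26.R.Join
import Vale.Agent.P004.R2.H880.AllY
import Vale.Agent.P004G.H503.Fin3

/-!
# P004: analytic rank zero for a positive proportion of the quadratic twists of every elliptic curve
over `ℚ` which is isogenous to a quadratic twist of `X_0(17)`
-/

namespace Vale.Agent.Results.P004.ARankZeroSeventeen

open Filter Topology

/-- `D` is a fundamental discriminant, `D ≠ 1` -/
def IsFundDisc (D : ℤ) : Prop :=
  D ≠ 1 ∧ ((D % 4 = 1 ∧ Squarefree D) ∨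
    ∃ d : ℤ, D = 4 * d ∧ (d % 4 = 2 ∨ d % 4 = 3) ∧ Squarefree d)

open scoped Classical in
/-- the fundamental discriminants `D ≠ 1` with `|D| ≤ X` -/
noncomputable def Family (X : ℕ) : Finset ℤ := (Finset.Icc (-(X : ℤ)) X).filter IsFundDisc

/-- the twist `D y² = x³ + a x + b`, written as `y² = x³ + a D² x + b D³` -/
noncomputable def twist (a b D : ℤ) : WeierstrassCurve ℚ :=
  ⟨0, 0, 0, ((a * D ^ 2 : ℤ) : ℚ), ((b * D ^ 3 : ℤ) : ℚ)⟩

/-- `L` is entire, and for `Re s > 3/2` it is the sum of the Dirichlet series of Mathlib's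
`L`-function of the twist -/
def IsLFun (a b D : ℤ) (L : ℂ → ℂ) : Prop :=
  Differentiable ℂ L ∧ ∀ s : ℂ, 3 / 2 < s.re →
    LSeriesHasSum (fun n => ((twist a b D).LFunction n : ℂ)) s (L s)

open scoped Classical in
/-- the analytic rank of the twist: the order of vanishing at `s = 1` of its entire
`L`-function -/
noncomputable def rank (a b D : ℤ) : ℕ :=
  if h : ∃ L, IsLFun a b D L then analyticOrderNatAt h.choose 1 else 0

open scoped Classical in
/-- the number of `D` in `Family X` with `rank a b D = 0` -/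
noncomputable def countZero (a b : ℤ) (X : ℕ) : ℝ :=
  (((Family X).filter (fun D => rank a b D = 0)).card : ℝ)

/-- the `j`-invariant of `y² = x³ + a x + b` -/
def jInv (a b : ℤ) : ℚ := 6912 * (a : ℚ) ^ 3 / (4 * (a : ℚ) ^ 3 + 27 * (b : ℚ) ^ 2)

/-- the `j`-invariant is that of one of the four curves of conductor `17` -/
def Seventeen (a b : ℤ) : Prop :=
  jInv a b = -35937 / 83521 ∨ jInv a b = 20346417 / 289 ∨ jInv a b = 82483294977 / 17 ∨
    jInv a b = 35937 / 17

/-- the equation `y² = x³ + a x + b` is the short Weierstrass equation `(-27 c₄, -54 c₆)` of one of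
the four curves of conductor `17`, in the order 17a1, 17a2, 17a3, 17a4 -/
def CondSeventeen (a b : ℤ) : Prop :=
  (a = -891 ∧ b = -648810) ∨ (a = -7371 ∧ b = -240570) ∨ (a = -117531 ∧ b = -15508746) ∨
    (a = -891 ∧ b = 4374)

/-- every twist has a unique entire `L`-function, and its order of vanishing at `s = 1` is
`rank a b D` (in particular it is finite) -/
def Continuation (a b : ℤ) : Prop :=
  ∀ D : ℤ, IsFundDisc D → ∃ L, IsLFun a b D L ∧ (∀ L', IsLFun a b D L' → L' = L) ∧
    analyticOrderAt L 1 = (rank a b D : ℕ∞)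

/-- the rank is zero for a positive proportion of the twists -/
def RankZero (a b : ℤ) : Prop :=
  ∃ c : ℝ, 0 < c ∧ ∃ X₀ : ℕ, ∀ X : ℕ, X₀ ≤ X → c * ((Family X).card : ℝ) ≤ countZero a b X

/-! ### comparison with the definitions used in the proofs -/

theorem countZero_eq (a b : ℤ) (X : ℕ) :
    countZero a b X = (((_root_.P004.Fam X).filter
      (fun D => _root_.P004G.aRk a b D = 0)).card : ℝ) := rfl

theorem jf_of {a b : ℤ} (hd : 4 * a ^ 3 + 27 * b ^ 2 ≠ 0) (h : Seventeen a b) :
    _root_.Vale.Agent.P004.H26.JF a b := by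
  have key : ∀ A B : ℤ, _root_.Vale.Agent.P004.H26.Four A B →
      4 * A ^ 3 + 27 * B ^ 2 ≠ 0 → jInv a b = jInv A B → _root_.Vale.Agent.P004.H26.JF a b := by
    intro A B h4 hd' h
    refine ⟨A, B, h4, ?_⟩
    have hq : (4 * (a : ℚ) ^ 3 + 27 * (b : ℚ) ^ 2) ≠ 0 := by exact_mod_cast hd
    have hq' : (4 * (A : ℚ) ^ 3 + 27 * (B : ℚ) ^ 2) ≠ 0 := by exact_mod_cast hd'
    unfold jInv at h
    rw [div_eq_div_iff hq hq'] at h
    have h2 : (a : ℚ) ^ 3 * (B : ℚ) ^ 2 = (A : ℚ) ^ 3 * (b : ℚ) ^ 2 := by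
      linear_combination h / 186624
    exact_mod_cast h2
  rcases h with h | h | h | h
  · refine key (-891) (-648810) (Or.inl ⟨rfl, rfl⟩) (by norm_num) ?_
    rw [h]; unfold jInv; norm_num
  · refine key (-7371) (-240570) (Or.inr (Or.inl ⟨rfl, rfl⟩)) (by norm_num) ?_
    rw [h]; unfold jInv; norm_num
  · refine key (-117531) (-15508746) (Or.inr (Or.inr (Or.inl ⟨rfl, rfl⟩))) (by norm_num) ?_
    rw [h]; unfold jInv; norm_num
  · refine key (-891) 4374 (Or.inr (Or.inr (Or.inr ⟨rfl, rfl⟩))) (by norm_num) ?_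
    rw [h]; unfold jInv; norm_num

theorem card_family_le (X : ℕ) : ((Family X).card : ℝ) ≤ 2 * X + 1 := by
  classical
  unfold Family
  have h := Finset.card_filter_le (Finset.Icc (-(X : ℤ)) X) IsFundDisc
  have h2 : (Finset.Icc (-(X : ℤ)) X).card = 2 * X + 1 := by
    rw [Int.card_Icc]; omega
  rw [h2] at h
  exact_mod_cast h

theorem rankZero_of {a b A B e : ℤ} (hC : _root_.Vale.Agent.P004.H26.Cls A B) (he : e ≠ 0)
    (hS : _root_.Vale.Agent.P004H.H641.SameL a b (A * e ^ 2) (B * e ^ 3)) : RankZero a b := by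
  classical
  obtain ⟨X₀, h⟩ := _root_.Vale.Agent.P004.H179.rank_zeroF hC he
  have he' : (0 : ℝ) < |(e : ℝ)| := abs_pos.2 (by exact_mod_cast he)
  set c : ℝ := 1 / (4000 * |(e : ℝ)|) with hc
  have hc0 : 0 < c := by positivity
  refine ⟨c / 3, by positivity, max X₀ 1, fun X hX => ?_⟩
  have h5 : countZero a b X = countZero (A * e ^ 2) (B * e ^ 3) X := by
    unfold countZero
    refine congrArg (fun s : Finset ℤ => (s.card : ℝ)) (Finset.filter_congr fun D hD => ?_)
    have hf : IsFundDisc D := by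
      unfold Family at hD
      exact (Finset.mem_filter.1 hD).2
    have h1 : _root_.P004G.aRk a b D = _root_.P004G.aRk (A * e ^ 2) (B * e ^ 3) D :=
      hS.aRk (_root_.Vale.Agent.P004H.H641.Fund1_ne (Or.inr hf))
    have h2 : rank a b D = rank (A * e ^ 2) (B * e ^ 3) D := h1
    rw [h2]
  have h6 : c * (X : ℝ) ≤ countZero (A * e ^ 2) (B * e ^ 3) X :=
    (h X ((le_max_left _ _).trans hX)).trans (le_of_eq (countZero_eq _ _ X).symm)
  have h7 := card_family_le X
  have h8 : (1 : ℝ) ≤ X := by exact_mod_cast (le_max_right _ _).trans hX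
  rw [h5]
  refine le_trans ?_ h6
  have h9 : c / 3 * ((Family X).card : ℝ) ≤ c / 3 * (2 * X + 1) :=
    mul_le_mul_of_nonneg_left h7 (by positivity)
  nlinarith

/-- **Analytic rank zero in the families of quadratic twists of the elliptic curves isogenous to a
quadratic twist of `X_0(17)`** (unconditional). The `L`-functions are Mathlib's
`WeierstrassCurve.LFunction`.

1. Let `E : y² = x³ + a x + b` be an elliptic curve, `a, b ∈ ℤ`, with `j(E)` the `j`-invariant of
   one of the four curves of conductor `17`. Every twist `E^(D)`, `D ≠ 1` a fundamental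
   discriminant, has a unique entire `L`-function, with order of vanishing `rank a b D` at `s = 1`,
   and `rank a b D = 0` for a positive proportion of the `D`.
2. If `E` is one of the four curves of conductor `17`, then the lower density of the `D` with
   `rank a b D = 0`, among all fundamental discriminants, is at least `17/162`. -/
theorem result :
    (∀ a b : ℤ, 4 * a ^ 3 + 27 * b ^ 2 ≠ 0 → Seventeen a b →
      Continuation a b ∧ RankZero a b) ∧
    (∀ a b : ℤ, CondSeventeen a b → ∀ ε : ℝ, 0 < ε → ∃ X₀ : ℕ, ∀ X : ℕ, X₀ ≤ X →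
      (17 / 162 - ε) * ((Family X).card : ℝ) ≤ countZero a b X) := by
  classical
  constructor
  · intro a b hd hj
    obtain ⟨hM, -⟩ := _root_.Vale.Agent.P004.H26.main_j _root_.P004G.allMLG
      _root_.P004G.pfLent _root_.P004G.pfLparity hd (jf_of hd hj)
    obtain ⟨⟨h1, -, -⟩, -, -⟩ := _root_.P004G.concl_all hd hM
    obtain ⟨A, B, h4, e, he, hS⟩ := _root_.Vale.Agent.P004.H26.same_four hd (jf_of hd hj)
    exact ⟨h1, rankZero_of (_root_.Vale.Agent.P004.H26.cls_four h4) he hS⟩
  · intro a b h4 ε hε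
    have hC : _root_.Vale.Agent.P004.H26.Cls a b := _root_.Vale.Agent.P004.H26.cls_four h4
    obtain ⟨X₀, h⟩ := _root_.Vale.Agent.P004.H179.lower_density hC ε hε
    exact ⟨X₀, fun X hX => (h X hX).trans (le_of_eq (countZero_eq a b X).symm)⟩

end Vale.Agent.Results.P004.ARankZeroSeventeen
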